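import Vale.Agent.P065.UB.Defs

/-!
# P065, upper bound: affine invariance of the front end objects (helper139)

`af α β γ δ ε (x, y) = (α x + β, γ y + δ x + ε)` with `α, γ > 0` maps lines of slope `m` to lines
of slope `am α γ δ m = (γ m + δ) / α` and keeps the relations left of and below, hence `Ed`, `EdIn`, `EdBd`, `Tch`,
`Good`.
-/

set_option autoImplicit false

namespace Vale.Agent.P065.UB.H139

open Finset

/-- the affine map `(x, y) ↦ (α x + β, γ y + δ x + ε)` -/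
def af (α β γ δ ε : ℝ) (p : Pt) : Pt := (α * p.1 + β, γ * p.2 + δ * p.1 + ε)

/-- the induced map on slopes -/
noncomputable def am (α γ δ : ℝ) (m : ℝ) : ℝ := (γ * m + δ) / α

variable {α β γ δ ε : ℝ}

lemma af_fst (p : Pt) : (af α β γ δ ε p).1 = α * p.1 + β := rfl

lemma af_snd (p : Pt) : (af α β γ δ ε p).2 = γ * p.2 + δ * p.1 + ε := rfl

lemma af_inj (hα : 0 < α) (hγ : 0 < γ) : Function.Injective (af α β γ δ ε) := by
  intro p q h
  have h1 := congrArg Prod.fst h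
  have h2 := congrArg Prod.snd h
  simp only [af_fst, af_snd] at h1 h2
  have h3 : p.1 = q.1 := by
    have : α * p.1 = α * q.1 := by linarith
    exact mul_left_cancel₀ hα.ne' this
  have h4 : p.2 = q.2 := by
    rw [h3] at h2
    have : γ * p.2 = γ * q.2 := by linarith
    exact mul_left_cancel₀ hγ.ne' this
  exact Prod.ext h3 h4

lemma pm_inj (hα : 0 < α) (hγ : 0 < γ) :
    Function.Injective (Prod.map (af α β γ δ ε) (af α β γ δ ε)) :=
  (af_inj hα hγ).prodMap (af_inj hα hγ)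

lemma am_inj (hα : 0 < α) (hγ : 0 < γ) : Function.Injective (am α γ δ) := by
  intro m m' h
  unfold am at h
  have h1 : γ * m + δ = γ * m' + δ := by
    rwa [div_left_inj' hα.ne'] at h
  have h2 : γ * m = γ * m' := by linarith
  exact mul_left_cancel₀ hγ.ne' h2

lemma am_le (hα : 0 < α) (hγ : 0 < γ) (m m' : ℝ) : am α γ δ m ≤ am α γ δ m' ↔ m ≤ m' := by
  unfold am
  rw [div_le_div_iff_of_pos_right hα]
  constructor
  · intro h
    have : γ * m ≤ γ * m' := by linarith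
    exact le_of_mul_le_mul_left this hγ
  · intro h
    have : γ * m ≤ γ * m' := by gcongr
    linarith

lemma am_lt (hα : 0 < α) (hγ : 0 < γ) (m m' : ℝ) : am α γ δ m < am α γ δ m' ↔ m < m' := by
  rw [← not_le, ← not_le, am_le hα hγ]

lemma am_sub (m m' : ℝ) : am α γ δ m' - am α γ δ m = γ / α * (m' - m) := by
  unfold am
  ring

/-- the inverse on slopes -/
lemma am_surj (hα : 0 < α) (hγ : 0 < γ) (m' : ℝ) : am α γ δ ((α * m' - δ) / γ) = m' := by
  unfold am
  field_simp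
  ring

lemma mem_am_image (hα : 0 < α) (hγ : 0 < γ) (I : Set ℝ) (m : ℝ) :
    am α γ δ m ∈ am α γ δ '' I ↔ m ∈ I := (am_inj hα hγ).mem_set_image

lemma mem_am_Icc (hα : 0 < α) (hγ : 0 < γ) (a b m : ℝ) :
    am α γ δ m ∈ Set.Icc (am α γ δ a) (am α γ δ b) ↔ m ∈ Set.Icc a b := by
  simp only [Set.mem_Icc, am_le hα hγ]

lemma ordConnected_of (hα : 0 < α) (hγ : 0 < γ) {I I' : Set ℝ}
    (hI : ∀ m, am α γ δ m ∈ I' ↔ m ∈ I) (h : I.OrdConnected) : I'.OrdConnected := by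
  refine ⟨fun x hx y hy z hz => ?_⟩
  rw [← am_surj (δ := δ) hα hγ x] at hx hz
  rw [← am_surj (δ := δ) hα hγ y] at hy hz
  rw [← am_surj (δ := δ) hα hγ z] at hz ⊢
  rw [hI] at hx hy ⊢
  exact h.out hx hy ⟨(am_le hα hγ _ _).1 hz.1, (am_le hα hγ _ _).1 hz.2⟩

lemma sl_af (hα : 0 < α) {p q : Pt} (h : p.1 ≠ q.1) :
    sl (af α β γ δ ε p) (af α β γ δ ε q) = am α γ δ (sl p q) := by
  have h1 : q.1 - p.1 ≠ 0 := sub_ne_zero.2 (Ne.symm h)
  unfold sl am
  simp only [af_fst, af_snd]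
  have h2 : α * q.1 + β - (α * p.1 + β) = α * (q.1 - p.1) := by ring
  rw [h2]
  field_simp
  ring

lemma ht_af (hα : 0 < α) (m : ℝ) (p : Pt) :
    ht (am α γ δ m) (af α β γ δ ε p) = γ * ht m p + (ε - am α γ δ m * β) := by
  unfold ht
  simp only [af_fst, af_snd]
  have h : am α γ δ m * α = γ * m + δ := by
    unfold am
    field_simp
  linear_combination (-p.1) * h

lemma ht_af_lt (hα : 0 < α) (hγ : 0 < γ) (m : ℝ) (p q : Pt) :
    ht (am α γ δ m) (af α β γ δ ε p) < ht (am α γ δ m) (af α β γ δ ε q) ↔ ht m p < ht m q := by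
  rw [ht_af hα, ht_af hα]
  constructor
  · intro h
    have : γ * ht m p < γ * ht m q := by linarith
    exact lt_of_mul_lt_mul_left this hγ.le
  · intro h
    have : γ * ht m p < γ * ht m q := by gcongr
    linarith

lemma ht_af_le (hα : 0 < α) (hγ : 0 < γ) (m : ℝ) (p q : Pt) :
    ht (am α γ δ m) (af α β γ δ ε p) ≤ ht (am α γ δ m) (af α β γ δ ε q) ↔ ht m p ≤ ht m q := by
  rw [← not_lt, ← not_lt, ht_af_lt hα hγ]

lemma ht_af_eq (hα : 0 < α) (hγ : 0 < γ) (m : ℝ) (p q : Pt) :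
    ht (am α γ δ m) (af α β γ δ ε p) = ht (am α γ δ m) (af α β γ δ ε q) ↔ ht m p = ht m q := by
  rw [le_antisymm_iff, le_antisymm_iff, ht_af_le hα hγ, ht_af_le hα hγ]

lemma fst_lt (hα : 0 < α) (p q : Pt) :
    (af α β γ δ ε p).1 < (af α β γ δ ε q).1 ↔ p.1 < q.1 := by
  simp only [af_fst]
  constructor
  · intro h
    have : α * p.1 < α * q.1 := by linarith
    exact lt_of_mul_lt_mul_left this hα.le
  · intro h
    have : α * p.1 < α * q.1 := by gcongr
    linarith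

lemma fst_eq (hα : 0 < α) (p q : Pt) :
    (af α β γ δ ε p).1 = (af α β γ δ ε q).1 ↔ p.1 = q.1 := by
  simp only [af_fst]
  constructor
  · intro h
    have : α * p.1 = α * q.1 := by linarith
    exact mul_left_cancel₀ hα.ne' this
  · intro h
    rw [h]

/-- `Good` is affinely invariant -/
theorem good_af (hα : 0 < α) (hγ : 0 < γ) {P : Finset Pt} (hP : Good P) :
    Good (P.image (af α β γ δ ε)) := by
  constructor
  · intro p' hp' q' hq' h
    obtain ⟨p, hp, rfl⟩ := Finset.mem_image.1 hp'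
    obtain ⟨q, hq, rfl⟩ := Finset.mem_image.1 hq'
    rw [fst_eq hα] at h
    rw [hP.xinj p hp q hq h]
  · intro m' a' ha' b' hb' c' hc' hab hac hbc h1 h2
    obtain ⟨a, ha, rfl⟩ := Finset.mem_image.1 ha'
    obtain ⟨b, hb, rfl⟩ := Finset.mem_image.1 hb'
    obtain ⟨c, hc, rfl⟩ := Finset.mem_image.1 hc'
    rw [← am_surj (δ := δ) hα hγ m', ht_af_eq hα hγ] at h1 h2
    exact hP.gen _ a ha b hb c hc (fun h => hab (by rw [h])) (fun h => hac (by rw [h]))
      (fun h => hbc (by rw [h])) h1 h2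

lemma mem_Ed_af (hα : 0 < α) (hγ : 0 < γ) {P : Finset Pt} {k : ℕ} (p q : Pt) :
    (af α β γ δ ε p, af α β γ δ ε q) ∈ Ed (P.image (af α β γ δ ε)) k ↔ (p, q) ∈ Ed P k := by
  classical
  unfold Ed
  simp only [Finset.mem_filter, Finset.mem_product, (af_inj hα hγ).mem_finset_image, fst_lt hα]
  constructor
  · rintro ⟨h1, h2, h3⟩
    refine ⟨h1, h2, ?_⟩
    rw [← h3, sl_af hα h2.ne, Finset.filter_image,
      Finset.card_image_of_injective _ (af_inj hα hγ)]
    refine congrArg Finset.card (Finset.filter_congr fun v _ => ?_)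
    rw [ht_af_lt hα hγ]
  · rintro ⟨h1, h2, h3⟩
    refine ⟨h1, h2, ?_⟩
    rw [← h3, sl_af hα h2.ne, Finset.filter_image,
      Finset.card_image_of_injective _ (af_inj hα hγ)]
    refine congrArg Finset.card (Finset.filter_congr fun v _ => ?_)
    rw [ht_af_lt hα hγ]

lemma mem_P_of_Ed {P : Finset Pt} {k : ℕ} {e : Pt × Pt} (h : e ∈ Ed P k) :
    e.1 ∈ P ∧ e.2 ∈ P ∧ e.1.1 < e.2.1 := by
  classical
  unfold Ed at h
  rw [Finset.mem_filter, Finset.mem_product] at h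
  exact ⟨h.1.1, h.1.2, h.2.1⟩

/-- the `k`-edges of the image -/
theorem Ed_af (hα : 0 < α) (hγ : 0 < γ) (P : Finset Pt) (k : ℕ) :
    Ed (P.image (af α β γ δ ε)) k =
      (Ed P k).image (Prod.map (af α β γ δ ε) (af α β γ δ ε)) := by
  classical
  ext e
  rw [Finset.mem_image]
  constructor
  · intro he
    obtain ⟨h1, h2, -⟩ := mem_P_of_Ed he
    obtain ⟨p, hp, hp'⟩ := Finset.mem_image.1 h1
    obtain ⟨q, hq, hq'⟩ := Finset.mem_image.1 h2
    have h3 : e = (af α β γ δ ε p, af α β γ δ ε q) := Prod.ext hp'.symm hq'.symm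
    rw [h3, mem_Ed_af hα hγ] at he
    exact ⟨(p, q), he, h3.symm⟩
  · rintro ⟨f, hf, rfl⟩
    exact (mem_Ed_af hα hγ f.1 f.2).2 hf

theorem card_Ed_af (hα : 0 < α) (hγ : 0 < γ) (P : Finset Pt) (k : ℕ) :
    #(Ed (P.image (af α β γ δ ε)) k) = #(Ed P k) := by
  rw [Ed_af hα hγ, Finset.card_image_of_injective _ (pm_inj hα hγ)]

lemma filter_pm {S : Finset (Pt × Pt)} {p p' : Pt × Pt → Prop} [DecidablePred p]
    [DecidablePred p'] (h : ∀ e ∈ S, (p' (Prod.map (af α β γ δ ε) (af α β γ δ ε) e) ↔ p e)) :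
    (S.image (Prod.map (af α β γ δ ε) (af α β γ δ ε))).filter p' =
      (S.filter p).image (Prod.map (af α β γ δ ε) (af α β γ δ ε)) := by
  classical
  rw [Finset.filter_image]
  refine congrArg _ (Finset.filter_congr fun e he => h e he)

/-- the inner edges of the image -/
theorem EdIn_af (hα : 0 < α) (hγ : 0 < γ) (P : Finset Pt) (k : ℕ) (Q : Finset Pt)
    {I I' : Set ℝ} (hI : ∀ m, am α γ δ m ∈ I' ↔ m ∈ I) :
    EdIn (P.image (af α β γ δ ε)) k (Q.image (af α β γ δ ε)) I' =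
      (EdIn P k Q I).image (Prod.map (af α β γ δ ε) (af α β γ δ ε)) := by
  classical
  unfold EdIn
  rw [Ed_af hα hγ]
  refine filter_pm fun e he => ?_
  have h := (mem_P_of_Ed he).2.2
  simp only [Prod.map_fst, Prod.map_snd, (af_inj hα hγ).mem_finset_image, sl_af hα h.ne, hI]

/-- the boundary edges of the image -/
theorem EdBd_af (hα : 0 < α) (hγ : 0 < γ) (P : Finset Pt) (k : ℕ) (Q : Finset Pt)
    {I I' : Set ℝ} (hI : ∀ m, am α γ δ m ∈ I' ↔ m ∈ I) :
    EdBd (P.image (af α β γ δ ε)) k (Q.image (af α β γ δ ε)) I' =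
      (EdBd P k Q I).image (Prod.map (af α β γ δ ε) (af α β γ δ ε)) := by
  classical
  unfold EdBd
  rw [Ed_af hα hγ]
  refine filter_pm fun e he => ?_
  have h := (mem_P_of_Ed he).2.2
  simp only [Prod.map_fst, Prod.map_snd, (af_inj hα hγ).mem_finset_image, sl_af hα h.ne, hI]

theorem card_EdIn_af (hα : 0 < α) (hγ : 0 < γ) (P : Finset Pt) (k : ℕ) (Q : Finset Pt)
    {I I' : Set ℝ} (hI : ∀ m, am α γ δ m ∈ I' ↔ m ∈ I) :
    #(EdIn (P.image (af α β γ δ ε)) k (Q.image (af α β γ δ ε)) I') = #(EdIn P k Q I) := by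
  rw [EdIn_af hα hγ P k Q hI, Finset.card_image_of_injective _ (pm_inj hα hγ)]

theorem card_EdBd_af (hα : 0 < α) (hγ : 0 < γ) (P : Finset Pt) (k : ℕ) (Q : Finset Pt)
    {I I' : Set ℝ} (hI : ∀ m, am α γ δ m ∈ I' ↔ m ∈ I) :
    #(EdBd (P.image (af α β γ δ ε)) k (Q.image (af α β γ δ ε)) I') = #(EdBd P k Q I) := by
  rw [EdBd_af hα hγ P k Q hI, Finset.card_image_of_injective _ (pm_inj hα hγ)]

/-- the touched points of the image -/
theorem Tch_af (hα : 0 < α) (hγ : 0 < γ) (P : Finset Pt) (k : ℕ) (Q : Finset Pt)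
    {I I' : Set ℝ} (hI : ∀ m, am α γ δ m ∈ I' ↔ m ∈ I) :
    Tch (P.image (af α β γ δ ε)) k (Q.image (af α β γ δ ε)) I' =
      (Tch P k Q I).image (af α β γ δ ε) := by
  classical
  unfold Tch
  rw [EdIn_af hα hγ P k Q hI, Finset.filter_image]
  refine congrArg _ (Finset.filter_congr fun v _ => ?_)
  constructor
  · rintro ⟨e, he, h⟩
    obtain ⟨f, hf, rfl⟩ := Finset.mem_image.1 he
    refine ⟨f, hf, ?_⟩
    simp only [Prod.map_fst, Prod.map_snd] at h
    exact h.imp (fun h => af_inj hα hγ h) (fun h => af_inj hα hγ h)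
  · rintro ⟨f, hf, h⟩
    refine ⟨_, Finset.mem_image_of_mem _ hf, ?_⟩
    simp only [Prod.map_fst, Prod.map_snd]
    exact h.imp (fun h => by rw [h]) (fun h => by rw [h])

theorem card_Tch_af (hα : 0 < α) (hγ : 0 < γ) (P : Finset Pt) (k : ℕ) (Q : Finset Pt)
    {I I' : Set ℝ} (hI : ∀ m, am α γ δ m ∈ I' ↔ m ∈ I) :
    #(Tch (P.image (af α β γ δ ε)) k (Q.image (af α β γ δ ε)) I') = #(Tch P k Q I) := by
  rw [Tch_af hα hγ P k Q hI, Finset.card_image_of_injective _ (af_inj hα hγ)]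

lemma univ_iff (m : ℝ) : am α γ δ m ∈ (Set.univ : Set ℝ) ↔ m ∈ (Set.univ : Set ℝ) := by simp

/-- a count of inner edges with a condition on the ends -/
theorem card_EdIn_filter_af (hα : 0 < α) (hγ : 0 < γ) (P : Finset Pt) (k : ℕ) (Q : Finset Pt)
    {I I' : Set ℝ} (hI : ∀ m, am α γ δ m ∈ I' ↔ m ∈ I) (c c' : Pt × Pt → Prop)
    [DecidablePred c] [DecidablePred c']
    (h : ∀ e ∈ EdIn P k Q I, (c' (af α β γ δ ε e.1, af α β γ δ ε e.2) ↔ c e)) :
    #((EdIn (P.image (af α β γ δ ε)) k (Q.image (af α β γ δ ε)) I').filter c') =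
      #((EdIn P k Q I).filter c) := by
  classical
  rw [EdIn_af hα hγ P k Q hI, filter_pm (p := c) (p' := c') (fun e he => h e he),
    Finset.card_image_of_injective _ (pm_inj hα hγ)]

end Vale.Agent.P065.UB.H139
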